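import Mathlib.Topology.Order.Monotone
import Mathlib.Topology.Instances.EReal.Lemmas

/-!
Two interlaced monotone families have the same limits off a countable set of parameters.
-/

set_option autoImplicit false

namespace Vale.Agent.P144N16

open Set Filter Topology

variable {ι : Type} {l : Filter ι}

/-- One side: an upper bound passes from `w` to `u` off a countable set. -/
theorem upper {u w : ℝ → ι → ℝ} {I : Set ℝ} (hI : IsOpen I)
    (h1 : ∀ s ∈ I, ∀ t ∈ I, s < t → ∀ ε > 0, ∀ᶠ a in l, u s a ≤ w t a + ε)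
    (h2 : ∀ s ∈ I, ∀ t ∈ I, s < t → ∀ ε > 0, ∀ᶠ a in l, w s a ≤ w t a + ε) :
    {t ∈ I | ∃ c, (∀ b > c, ∀ᶠ a in l, w t a < b) ∧ ¬ ∀ b > c, ∀ᶠ a in l, u t a < b}.Countable := by
  let W : ℝ → EReal := fun t => sInf {b : EReal | ∃ r : ℝ, b = r ∧ ∀ᶠ a in l, w t a < r}
  have le : ∀ (t y : ℝ), (∀ᶠ a in l, w t a < y) → W t ≤ y := fun t y h => sInf_le ⟨y, rfl, h⟩
  have hW : MonotoneOn W I := fun s hs t ht hst => by
    rcases hst.eq_or_lt with rfl | hst
    · exact le_rfl
    refine le_sInf ?_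
    rintro _ ⟨r, rfl, hr⟩
    refine le_of_forall_gt_imp_ge_of_dense fun z hz => ?_
    obtain ⟨y, hy1, hy2⟩ := EReal.lt_iff_exists_real_btwn.1 hz
    have hy := EReal.coe_lt_coe_iff.1 hy1
    refine (le s y ?_).trans hy2.le
    filter_upwards [hr, h2 s hs t ht hst (y - r) (by linarith)] with a a1 a2
    linarith
  refine hW.countable_not_continuousWithinAt.mono ?_
  rintro t ⟨ht, c, hc, hn⟩
  refine ⟨ht, fun hcont => hn fun b hb => ?_⟩
  have e1 : W t < ((c + b) / 2 : ℝ) :=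
    (le t ((3 * c + b) / 4) (hc _ (by linarith))).trans_lt
      (EReal.coe_lt_coe_iff.2 (by linarith))
  have e2 : ∀ᶠ s in 𝓝 t, W s < ((c + b) / 2 : ℝ) :=
    (hcont.continuousAt (hI.mem_nhds ht)).eventually_lt_const e1
  obtain ⟨s, ⟨s1, s2⟩, s3⟩ :=
    (((e2.and (hI.mem_nhds ht)).filter_mono (nhdsWithin_le_nhds (s := Ioi t))).and
      self_mem_nhdsWithin).exists
  obtain ⟨_, ⟨r, rfl, hr⟩, r1⟩ := sInf_lt_iff.1 s1
  have r2 := EReal.coe_lt_coe_iff.1 r1
  filter_upwards [hr, h1 t ht s s2 s3 ((b - c) / 2) (by linarith)] with a a1 a2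
  linarith

/-- Interlaced increasing families: a limit of `w t` is a limit of `u t`, for all but countably
many `t`. -/
theorem sandwich {u w : ℝ → ι → ℝ} {I : Set ℝ} (hI : IsOpen I) (hc : I.OrdConnected)
    (h : ∀ s ∈ I, ∀ t ∈ I, s < t → ∀ ε > 0, ∀ᶠ a in l, u s a ≤ w t a + ε ∧ w s a ≤ u t a + ε) :
    {t ∈ I | ∃ c, Tendsto (w t) l (𝓝 c) ∧ ¬ Tendsto (u t) l (𝓝 c)}.Countable := by
  have h2 : ∀ s ∈ I, ∀ t ∈ I, s < t → ∀ ε > 0, ∀ᶠ a in l, w s a ≤ w t a + ε := by
    intro s hs t ht hst ε hε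
    have hm : (s + t) / 2 ∈ I := hc.out hs ht ⟨by linarith, by linarith⟩
    filter_upwards [h s hs _ hm (by linarith) (ε / 2) (by linarith),
      h _ hm t ht (by linarith) (ε / 2) (by linarith)] with a a1 a2
    linarith [a1.2, a2.1]
  have c1 := upper hI (fun s hs t ht hst ε hε => (h s hs t ht hst ε hε).mono fun _ h => h.1) h2
  have c2 := upper (l := l) (u := fun t a => -u (-t) a) (w := fun t a => -w (-t) a)
    (I := (fun t => -t) ⁻¹' I) (hI.preimage continuous_neg)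
    (fun s hs t ht hst ε hε => (h _ ht _ hs (neg_lt_neg hst) ε hε).mono fun _ h => by
      linarith [h.2])
    (fun s hs t ht hst ε hε => (h2 _ ht _ hs (neg_lt_neg hst) ε hε).mono fun _ h => by linarith)
  refine (c1.union (c2.image fun t => -t)).mono ?_
  rintro t ⟨ht, c, hw, hu⟩
  rw [tendsto_order] at hw hu
  rcases not_and_or.1 hu with hu | hu
  · refine Or.inr ⟨-t, ⟨by simpa using ht, -c, fun b hb => ?_, fun h => hu fun b hb => ?_⟩,
      neg_neg t⟩
    · filter_upwards [hw.1 (-b) (by linarith)] with a ha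
      rw [neg_neg]
      linarith
    · filter_upwards [h (-b) (by linarith)] with a ha
      rw [neg_neg] at ha
      linarith
  · exact Or.inl ⟨ht, c, hw.2, hu⟩

end Vale.Agent.P144N16
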