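import Mathlib.Geometry.Manifold.PartitionOfUnity
import Mathlib.Topology.MetricSpace.HausdorffDimension
import Mathlib.Analysis.InnerProductSpace.Calculus
import Mathlib.Analysis.Complex.Basic
import Mathlib.LinearAlgebra.Complex.FiniteDimensional

/-!
Between a compact set and an open set of the plane there is a domain with `C¹` boundary.
-/

set_option autoImplicit false

namespace Vale.Agent.P144N16

open Set Metric Topology
open scoped Manifold ContDiff

theorem exists_c1 {K U : Set ℂ} (hK : IsCompact K) (hU : IsOpen U) (h : K ⊆ U) :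
    ∃ D : Set ℂ, (Bornology.IsBounded D ∧ ∃ F : ℂ → ℝ, ContDiff ℝ 1 F ∧ D = {z | 0 < F z} ∧
      ∀ z, F z = 0 → fderiv ℝ F z ≠ 0) ∧ K ⊆ D ∧ closure D ⊆ U := by
  obtain ⟨K', c1, c2, c3⟩ := exists_compact_between hK hU h
  obtain ⟨g, g0, g1, -⟩ := exists_contMDiffMap_zero_one_of_isClosed (n := 2) 𝓘(ℝ, ℂ)
    (isOpen_interior (s := K')).isClosed_compl hK.isClosed
    (disjoint_compl_left_iff_subset.2 c2)
  have hg : ContDiff ℝ 2 (g : ℂ → ℝ) := g.contMDiff.contDiff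
  obtain ⟨R, hR0, hR⟩ := hK.isBounded.exists_pos_norm_le
  set δ : ℝ := 1 / (8 * R ^ 2) with hδ
  have δ0 : 0 < δ := by positivity
  let G : ℂ → ℝ := fun z => g z - δ * ‖z‖ ^ 2
  have hG : ContDiff ℝ 2 G := hg.sub (contDiff_const.mul (contDiff_norm_sq ℝ))
  have hG' : ContDiff ℝ 1 (fderiv ℝ G) := hG.fderiv_right (by norm_num)
  let Φ : ℂ → ℝ × (ℂ →L[ℝ] ℝ) := fun z => (G z - fderiv ℝ G z z, fderiv ℝ G z)
  have hΦ : ContDiff ℝ 1 Φ :=
    ((hG.of_le (by norm_num)).sub (hG'.clm_apply contDiff_id)).prodMk hG'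
  have hd := hΦ.dense_compl_range_of_finrank_lt_finrank (by
    rw [Module.finrank_prod, ← LinearEquiv.finrank_eq LinearMap.toContinuousLinearMap,
      Module.finrank_linearMap, Complex.finrank_real_complex, Module.finrank_self]
    norm_num)
  set ε : ℝ := min (1 / 8) (1 / (8 * R)) with hε
  obtain ⟨⟨c, v⟩, hn, hb⟩ := hd.exists_dist_lt ((1 / 2 : ℝ), (0 : ℂ →L[ℝ] ℝ))
    (ε := ε) (by positivity)
  rw [Prod.dist_eq, max_lt_iff, Real.dist_eq, dist_zero_left] at hb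
  obtain ⟨b1, b2⟩ := hb
  dsimp only at b1 b2
  have b3 := abs_lt.1 (b1.trans_le (min_le_left _ _))
  have b4 : ‖v‖ * R ≤ 1 / 8 := by
    have := (b2.trans_le (min_le_right _ _)).le
    rw [le_div_iff₀ (by positivity)] at this
    linarith
  have hv : ∀ z, |v z| ≤ ‖v‖ * ‖z‖ := fun z => v.le_opNorm z
  have hsub : {z | 0 < G z - c - v z} ⊆ K' := fun z hz => by
    by_contra hz'
    have e0 : g z = 0 := g0 fun h => hz' (interior_subset h)
    have e1 : 0 < g z - δ * ‖z‖ ^ 2 - c - v z := hz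
    have e2 := (abs_le.1 (hv z)).1
    obtain ⟨t, ht⟩ : ∃ t, ‖z‖ = t * R := ⟨‖z‖ / R, by field_simp⟩
    have t0 : 0 ≤ t := nonneg_of_mul_nonneg_left (ht ▸ norm_nonneg z) hR0
    have e3 : δ * ‖z‖ ^ 2 = t ^ 2 / 8 := by rw [ht, hδ]; field_simp
    have e4 : ‖v‖ * ‖z‖ ≤ t / 8 := by rw [ht]; nlinarith
    nlinarith [sq_nonneg (t - 1)]
  refine ⟨{z | 0 < G z - c - v z}, ⟨c1.isBounded.subset hsub, fun z => G z - c - v z,
    ((hG.of_le (by norm_num)).sub contDiff_const).sub v.contDiff, rfl, fun z hz h0 => hn ?_⟩,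
    fun z hz => ?_, (closure_minimal hsub c1.isClosed).trans c3⟩
  · have d1 : HasFDerivAt (fun z => G z - c - v z) (fderiv ℝ G z - v) z :=
      (((hG.differentiable (by norm_num)) z).hasFDerivAt.sub_const c).sub v.hasFDerivAt
    rw [d1.fderiv, sub_eq_zero] at h0
    refine ⟨z, Prod.ext ?_ h0⟩
    change G z - fderiv ℝ G z z = c
    rw [h0]
    linarith
  · have e0 : g z = 1 := g1 hz
    have e1 := hR z hz
    have e2 := (abs_le.1 (hv z)).2
    have e3 : δ * ‖z‖ ^ 2 ≤ 1 / 8 := by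
      calc δ * ‖z‖ ^ 2 ≤ δ * R ^ 2 := by gcongr
        _ = 1 / 8 := by rw [hδ]; field_simp
    have e4 : ‖v‖ * ‖z‖ ≤ ‖v‖ * R := by gcongr
    change 0 < g z - δ * ‖z‖ ^ 2 - c - v z
    linarith

end Vale.Agent.P144N16
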